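import Vale.Agent.P307.Tw.Ladder

/-! The compactness theorem for torsors. -/

universe u

namespace Vale.Agent.P307.Tw

open Cardinal Set Function Sys

variable {S : Sys.{u}} {h : Cardinal.{u} → Cardinal.{u}} {Y : Type u}

theorem Tor.exists_all (hh : IsHanf S h)
    (E : Tor S (univ : Set Y) (fun _ => (none : Option Empty)))
    (hsmall : ∀ s : Set Y, #s < th h → Nonempty (E.P s)) :
    ∀ (ρ : Cardinal.{u}) (t : Set Y), #t = ρ → th h ≤ #t → Nonempty (E.P t) := by
  classical
  intro ρ
  induction ρ using WellFoundedLT.induction with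
  | ind ρ ih =>
  intro t ht hle
  rcases hle.eq_or_lt with h1 | h1
  · obtain ⟨V⟩ := exists_lev (h := h) t (fun _ => (none : Option Empty)) h1.symm (by
      rw [h1]
      exact mk_congr (Equiv.subtypeEquivRight fun y => by simp))
    let E' : Tor S t (fun _ => (none : Option Empty)) :=
      { E with diff := fun _ p q => E.diff (subset_univ _) p q }
    exact E'.exists_th hh V fun k => hsmall _ (by rw [V.card]; exact lam_lt_th k)
  · obtain ⟨s0, hs0, hs0c⟩ := (le_mk_iff_exists_subset (s := t)).1 hle
    obtain ⟨x0⟩ := ih (#s0) (by rw [hs0c, ← ht]; exact h1) s0 rfl hs0c.ge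
    have hinf : ℵ₀ ≤ #t := aleph0_le_th.trans h1.le
    obtain ⟨x, -⟩ := E.toSheaf.extend hs0 hinf (by rw [hs0c]; exact h1) x0 (by
      intro s hs0s hst hst' d hd hds x
      have hcard : #(insert d s : Set Y) < #t :=
        (mk_insert_le).trans_lt (add_lt_of_lt hinf hst' (one_lt_aleph0.trans_le hinf))
      have hbig : th h ≤ #s := by
        rw [← hs0c]
        exact mk_le_mk_of_subset hs0s
      obtain ⟨q⟩ := ih (#(insert d s : Set Y)) (by rw [← ht]; exact hcard) _ rfl
        (hbig.trans (mk_le_mk_of_subset (subset_insert _ _)))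
      obtain ⟨g, hg⟩ := E.diff (subset_univ s) (E.r (subset_insert d s) q) x
      let c' : Y → Option Unit := fun y => if y = d then some () else none
      have hts : (insert d s) ∩ face c' () ⊆ s := by
        rintro y ⟨h2, h3⟩
        refine (mem_insert_iff.1 h2).resolve_left ?_
        rintro rfl
        exact h3 (by simp [c'])
      obtain ⟨g', hg'⟩ := solv hh _ (insert d s) rfl Unit c' (by
        refine hbig.trans (mk_le_mk_of_subset fun y hy => ⟨Or.inr hy, ?_⟩)
        have : y ≠ d := by
          rintro rfl
          exact hds hy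
        simp [c', this]) (fun _ => S.r hts g.1) (fun _ _ => by simp only [r_r])
      have h4 : s ⊆ insert d s ∩ face c' () := fun y hy => ⟨Or.inr hy, by
        have : y ≠ d := by
          rintro rfl
          exact hds hy
        change c' y ≠ some ()
        simp [c', this]⟩
      have h5 := hg'.all () (mem_univ _) (subset_insert d s) h4
      change _ = S.r _ (S.r _ g.1) at h5
      rw [r_r, r_self] at h5
      refine ⟨E.act ⟨g', ?_⟩ q, ?_⟩
      · rintro _ ⟨j, -⟩
        exact j.elim
      · rw [E.r_act (subset_insert d s) _ g h5.symm, hg])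
    exact ⟨x⟩

/-- **Compactness.** For every functor `S` there is a cardinal `θ` such that an `S`-torsor over a
set which is trivial over all subsets of size less than `θ` is trivial. -/
theorem compactness (S : Sys.{u}) : ∃ θ : Cardinal.{u}, ℵ₀ ≤ θ ∧ ∀ {Y : Type u}
    (E : Tor S (univ : Set Y) (fun _ => (none : Option Empty))), θ ≤ #Y →
    (∀ s : Set Y, #s < θ → Nonempty (E.P s)) → Nonempty (E.P univ) := by
  obtain ⟨h, hh⟩ := exists_isHanf S
  refine ⟨th h, aleph0_le_th, fun {Y} E hY hs => ?_⟩
  exact E.exists_all hh hs _ univ rfl (by rwa [mk_univ])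

end Vale.Agent.P307.Tw
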