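import Vale.Agent.P307.Tw.Chain
import Vale.Agent.P307.Tw.Compact
import Vale.Agent.P307.H227.GF

/-! Functors with glueing along chains are flasque. -/

universe u

namespace Vale.Agent.P307.Tw

open Cardinal Set Function H227

section

variable {χ : Cardinal.{u}} (G : GF χ)

theorem gf_res_cancel {X Y : Type u} (e : X ≃ Y) {a b : G.G Y}
    (h : G.res e.toEmbedding a = G.res e.toEmbedding b) : a = b := by
  have h1 := congrArg (G.res e.symm.toEmbedding) h
  rw [← G.res_trans, ← G.res_trans] at h1
  have h2 : e.symm.toEmbedding.trans e.toEmbedding = Embedding.refl Y := by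
    ext x
    simp
  rwa [h2, G.res_refl, G.res_refl] at h1

theorem gf_res_symm {X Y : Type u} (e : X ≃ Y) (a : G.G X) :
    G.res e.toEmbedding (G.res e.symm.toEmbedding a) = a := by
  rw [← G.res_trans]
  have h2 : e.toEmbedding.trans e.symm.toEmbedding = Embedding.refl X := by
    ext x
    simp
  rw [h2, G.res_refl]

theorem gf_glue {X ι : Type u} [LinearOrder ι] [WellFoundedLT ι] [Nonempty ι] (A : ι → Type u)
    (f : ∀ i, A i ↪ X) (f' : ∀ i j, i ≤ j → (A i ↪ A j))
    (hf : ∀ i j h x, f j (f' i j h x) = f i x) (hc : ∀ x, ∃ i, x ∈ range (f i))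
    (hχ : ∀ i, χ ≤ #(A i)) (g : ∀ i, G.G (A i)) (hg : ∀ i j h, G.res (f' i j h) (g j) = g i) :
    ∃ b : G.G X, ∀ i, G.res (f i) b = g i := by
  let S : ι → Set X := fun i => range (f i)
  let e : ∀ i, A i ≃ S i := fun i => Equiv.ofInjective (f i) (f i).injective
  have hS : Monotone S := by
    rintro i j h _ ⟨x, rfl⟩
    exact ⟨f' i j h x, hf i j h x⟩
  obtain ⟨b, hb⟩ := G.glue S hS hc (fun i => by rw [← mk_congr (e i)]; exact hχ i)
    (fun i => G.res (e i).symm.toEmbedding (g i)) (by
      intro i j hij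
      apply gf_res_cancel G (e i)
      rw [gf_res_symm, ← G.res_trans, ← G.res_trans, ← hg i j hij]
      congr 1
      ext x
      apply (f j).injective
      rw [hf]
      have h1 : ∀ y : S j, f j ((e j).symm y) = y.1 := fun y =>
        congrArg Subtype.val ((e j).apply_symm_apply y)
      change f j ((e j).symm _) = _
      rw [h1]
      rfl)
  refine ⟨b, fun i => ?_⟩
  have h1 := congrArg (G.res (e i).toEmbedding) (hb i)
  rw [gf_res_symm, ← G.res_trans] at h1
  exact h1

theorem gf_ext {X ι : Type u} [LinearOrder ι] [WellFoundedLT ι] [Nonempty ι] (A : ι → Type u)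
    (f : ∀ i, A i ↪ X) (hm : ∀ i j, i ≤ j → range (f i) ⊆ range (f j))
    (hc : ∀ x, ∃ i, x ∈ range (f i)) (hχ : ∀ i, χ ≤ #(A i)) (a b : G.G X)
    (hab : ∀ i, G.res (f i) a = G.res (f i) b) : a = b := by
  let S : ι → Set X := fun i => range (f i)
  let e : ∀ i, A i ≃ S i := fun i => Equiv.ofInjective (f i) (f i).injective
  refine G.ext S (fun i j h => hm i j h) hc (fun i => by rw [← mk_congr (e i)]; exact hχ i) a b
    fun i => gf_res_cancel G (e i) ?_
  rw [← G.res_trans, ← G.res_trans]
  exact hab i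

/-- The functor `X ↦ G (B + X)`. -/
def gfSys (B : Type u) (hB : χ ≤ #B) : CSys.{u} where
  Γ X := G.G (B ⊕ X)
  grp X := G.grp _
  res f := G.res ((Embedding.refl B).sumMap f)
  res_mul f a b := G.res_mul _ a b
  res_refl {X} a := by
    have h : (Embedding.refl B).sumMap (Embedding.refl X) = Embedding.refl (B ⊕ X) := by
      ext x
      cases x <;> rfl
    rw [h, G.res_refl]
  res_trans f g a := by
    rw [← G.res_trans]
    congr 1
    ext x
    cases x <;> rfl
  glue {Y ι _ _ _} s t h hc hm a ha := by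
    refine gf_glue G (fun i => B ⊕ s i)
      (fun i => (Embedding.refl B).sumMap (embeddingOfSubset _ _ (h i)))
      (fun i j hij => (Embedding.refl B).sumMap (embeddingOfSubset _ _ (hm hij))) ?_ ?_ ?_ a ha
    · intro i j hij x
      cases x <;> rfl
    · rintro (x | ⟨y, hy⟩)
      · exact ⟨Classical.arbitrary ι, Sum.inl x, rfl⟩
      · obtain ⟨i, hi⟩ := hc y hy
        exact ⟨i, Sum.inr ⟨y, hi⟩, rfl⟩
    · intro i
      refine hB.trans ?_
      rw [mk_sum, lift_id, lift_id]
      exact le_self_add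
  sep {Y ι _ _ _} s t h hc hm a b hab := by
    refine gf_ext G (fun i => B ⊕ s i)
      (fun i => (Embedding.refl B).sumMap (embeddingOfSubset _ _ (h i))) ?_ ?_ ?_ a b hab
    · rintro i j hij _ ⟨x, rfl⟩
      cases x with
      | inl x => exact ⟨Sum.inl x, rfl⟩
      | inr x => exact ⟨Sum.inr ⟨x.1, hm hij x.2⟩, rfl⟩
    · rintro (x | ⟨y, hy⟩)
      · exact ⟨Classical.arbitrary ι, Sum.inl x, rfl⟩
      · obtain ⟨i, hi⟩ := hc y hy
        exact ⟨i, Sum.inr ⟨y, hi⟩, rfl⟩
    · intro i
      refine hB.trans ?_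
      rw [mk_sum, lift_id, lift_id]
      exact le_self_add

end

open Classical in
/-- The decomposition of a type along an embedding. -/
noncomputable def dec {B X : Type u} (b : B ↪ X) : B ⊕ ((range b)ᶜ : Set X) ≃ X :=
  (Equiv.sumCongr (Equiv.ofInjective b b.injective) (Equiv.refl _)).trans
    (Equiv.Set.sumCompl (range b))

theorem dec_inl {B X : Type u} (b : B ↪ X) (x : B) : dec b (Sum.inl x) = b x := by
  unfold dec
  simp

theorem dec_inr {B X : Type u} (b : B ↪ X) (x : ((range b)ᶜ : Set X)) :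
    dec b (Sum.inr x) = x.1 := by
  unfold dec
  simp

/-- The map between the complements. -/
def decMap {B X Y : Type u} (b : B ↪ X) (i : X ↪ Y) :
    ((range b)ᶜ : Set X) ↪ ((range (b.trans i))ᶜ : Set Y) where
  toFun x := ⟨i x.1, by
    rintro ⟨y, hy⟩
    exact x.2 ⟨y, i.injective hy⟩⟩
  inj' x y hxy := Subtype.ext (i.injective (congrArg
    (fun z : ((range (b.trans i))ᶜ : Set Y) => z.1) hxy))

theorem dec_decMap {B X Y : Type u} (b : B ↪ X) (i : X ↪ Y) :
    ((Embedding.refl B).sumMap (decMap b i)).trans (dec (b.trans i)).toEmbedding =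
      (dec b).toEmbedding.trans i := by
  ext x
  cases x with
  | inl x =>
    change dec (b.trans i) (Sum.inl x) = i (dec b (Sum.inl x))
    rw [dec_inl, dec_inl]
    rfl
  | inr x =>
    change dec (b.trans i) (Sum.inr (decMap b i x)) = i (dec b (Sum.inr x))
    rw [dec_inr, dec_inr]
    rfl

theorem extend_embedding {X Z W : Type u} (f : X ↪ Z) (g : X ↪ W) (h1 : #X < #W) (h2 : #Z ≤ #W)
    (h3 : ℵ₀ ≤ #W) : ∃ e : Z ↪ W, f.trans e = g := by
  have : Infinite W := infinite_iff.2 h3
  have h4 : #((range g)ᶜ : Set W) = #W := by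
    apply mk_compl_of_infinite
    rwa [mk_range_eq g g.injective]
  obtain ⟨e⟩ : Nonempty (((range f)ᶜ : Set Z) ↪ ((range g)ᶜ : Set W)) := by
    change #((range f)ᶜ : Set Z) ≤ #((range g)ᶜ : Set W)
    rw [h4]
    exact (mk_set_le _).trans h2
  refine ⟨(dec f).symm.toEmbedding.trans (((Embedding.refl X).sumMap e).trans
    (dec g).toEmbedding), ?_⟩
  ext x
  change dec g ((Embedding.refl X).sumMap e ((dec f).symm (f x))) = g x
  have h5 : (dec f).symm (f x) = Sum.inl x := by
    rw [Equiv.symm_apply_eq, dec_inl]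
  rw [h5]
  exact dec_inl g x

section

variable {S : Sys.{u}} {h : Cardinal.{u} → Cardinal.{u}}

open Sys

theorem sys_stable (hh : IsHanf S h) {X Y Z : Type u} (i : X ↪ Y) (j : Y ↪ Z)
    (h1 : h #X ≤ #Y) (h2 : #X < #Z) (h3 : ℵ₀ ≤ #Z) (g : S.Γ Y) :
    ∃ δ : S.Γ Z, S.res (i.trans j) δ = S.res i g := by
  have e1 : Ext (fun _ : X => ()) ∅ univ (S.res i g) (h #X) :=
    ⟨Y, fun _ => (), i, g, fun _ => rfl, rfl, fun a ha => absurd ha (notMem_empty a),
      fun y hy => absurd (mem_univ _) hy, fun a _ => by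
        refine h1.trans (mk_congr ?_).le
        exact (Equiv.subtypeUnivEquiv fun y => rfl).symm⟩
  obtain ⟨W, c', i2, δ', -, h5, -, -, h6⟩ := hh _ _ _ _ _ _ e1 #Z
  have h7 : #Z ≤ #W := (h6 () (mem_univ _)).trans (mk_subtype_le _)
  obtain ⟨e, he⟩ := extend_embedding (i.trans j) i2 (h2.trans_le h7) h7 (h3.trans h7)
  exact ⟨S.res e δ', by rw [S.res_trans, he, h5]⟩

theorem sys_surj (hh : IsHanf S h) {X Y : Type u} (i : X ↪ Y) (hX : th h ≤ #X) :
    Surjective (S.res i) := by
  classical
  intro g
  let c : Y → Option Unit := fun y => if y ∈ range i then none else some ()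
  have hc : ∀ y, y ∈ face c () ↔ y ∈ range i := by
    intro y
    change c y ≠ some () ↔ _
    by_cases hy : y ∈ range i
    · refine iff_of_true ?_ hy
      rw [show c y = none from if_pos hy]
      simp
    · refine iff_of_false ?_ hy
      rw [show c y = some () from if_neg hy]
      simp
  let e : ↥(Set.univ ∩ face c ()) ↪ X := ⟨fun y => ((hc y.1).1 y.2.2).choose, by
    intro y y' hyy
    apply Subtype.ext
    rw [← ((hc y.1).1 y.2.2).choose_spec, ← ((hc y'.1).1 y'.2.2).choose_spec]
    exact congrArg i hyy⟩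
  have he : ∀ y, i (e y) = y.1 := fun y => ((hc y.1).1 y.2.2).choose_spec
  obtain ⟨g', hg'⟩ := solv hh _ (Set.univ : Set Y) rfl Unit c (by
    refine hX.trans ?_
    apply mk_le_of_injective (f := fun x : X => (⟨i x, mem_univ _, by
      simp [c]⟩ : {y // y ∈ Set.univ ∧ c y = none}))
    intro x x' hxx
    simp only [Subtype.mk.injEq] at hxx
    exact i.injective hxx) (fun _ => S.res e g) (fun _ _ => rfl)
  have h1 := hg' () (Set.mem_univ _)
  let i0 : X ↪ ↥(Set.univ ∩ face c ()) := ⟨fun x => ⟨i x, mem_univ _, (hc _).2 ⟨x, rfl⟩⟩, by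
    intro x x' hxx
    exact i.injective (congrArg (fun z : ↥(Set.univ ∩ face c ()) => z.1) hxx)⟩
  refine ⟨S.res (Equiv.Set.univ Y).symm.toEmbedding g', ?_⟩
  have h2 := congrArg (S.res i0) h1
  rw [res_r, res_r, S.res_trans] at h2
  rw [S.res_trans]
  have h3 : (i0.trans (embeddingOfSubset (Set.univ ∩ face c ()) (Set.univ ∩ face c ())
      (inter_subset_inter_left _ Subset.rfl))).trans e = Embedding.refl X := by
    ext x
    apply i.injective
    change i (e _) = i x
    rw [he]
    rfl
  rw [h3, S.res_refl] at h2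
  exact h2

end

/-- Every functor with glueing along chains is flasque. -/
theorem flasque {χ : Cardinal.{u}} (G : GF χ) : G.Flasque := by
  intro C hC
  obtain ⟨B, hB⟩ : ∃ B : Type u, #B = χ := ⟨_, mk_out χ⟩
  let S : Sys.{u} := (gfSys G B hB.ge).toSys
  obtain ⟨h0, hh0⟩ := exists_isHanf S
  choose pick hpick hle using hC
  let h : Cardinal.{u} → Cardinal.{u} := fun x =>
    pick (max (max (Order.succ x) (h0 x)) (Order.succ χ))
  have hh : IsHanf S h := fun C _ X c F J δ hE b => hh0 C X c F J δ
    (hE.mono (((le_max_right _ _).trans (le_max_left _ _)).trans (hle _))) b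
  have hlam : ∀ n, lam h (n + 1) = h (lam h n) := fun n =>
    max_eq_right (((le_max_left _ _).trans (le_max_left _ _)).trans (hle _))
  have hχ : ∀ n, χ < lam h (n + 1) := fun n => by
    rw [hlam]
    exact (Order.lt_succ χ).trans_le ((le_max_right _ _).trans (hle _))
  have hsub : ∀ {X : Type u} (b : B ↪ X), ℵ₀ ≤ #X → χ < #X → #((range b)ᶜ : Set X) = #X := by
    intro X b h1 h2
    have : Infinite X := infinite_iff.2 h1
    apply mk_compl_of_infinite
    rwa [mk_range_eq b b.injective, hB]
  have hth : (⨆ n, lam h (n + 1)) = th h := by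
    apply le_antisymm
    · exact ciSup_le' fun n => lam_le_th (n + 1)
    · exact ciSup_le' fun n => (lam_lt_succ n).le.trans
        (le_ciSup (f := fun n => lam h (n + 1)) bddAbove_of_small n)
  refine ⟨fun n => lam h (n + 1), fun m n hmn => lam_strictMono (by omega), fun n => ?_,
    (hχ 0).le, aleph0_le_lam 1, ?_, ?_⟩
  · change lam h (n + 1) ∈ C
    rw [hlam]
    exact hpick _
  · intro n X Y Z i j hX hY hZ g
    simp only at hX hY hZ
    obtain ⟨b⟩ : Nonempty (B ↪ X) := by
      change #B ≤ #X
      rw [hB, hX]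
      exact (hχ n).le
    have e1 := hsub b (by rw [hX]; exact aleph0_le_lam _) (by rw [hX]; exact hχ n)
    have e2 := hsub (b.trans i) (by rw [hY]; exact aleph0_le_lam _) (by rw [hY]; exact hχ (n + 1))
    have e3 := hsub ((b.trans i).trans j) (by rw [hZ]; exact aleph0_le_lam _)
      (by rw [hZ]; exact hχ (n + 2))
    obtain ⟨δ, hδ⟩ : ∃ δ : G.G (B ⊕ ((range ((b.trans i).trans j))ᶜ : Set Z)),
        G.res ((Embedding.refl B).sumMap ((decMap b i).trans (decMap (b.trans i) j))) δ =
        G.res ((Embedding.refl B).sumMap (decMap b i)) (G.res (dec (b.trans i)).toEmbedding g) :=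
      sys_stable (S := S) hh (decMap b i) (decMap (b.trans i) j)
      (by rw [e1, e2, hX, hY]; exact hanf_le _)
      (by rw [e1, e3, hX, hZ]; exact lam_strictMono (by omega))
      (by rw [e3, hZ]; exact aleph0_le_lam _)
      (G.res (dec (b.trans i)).toEmbedding g)
    refine ⟨G.res (dec ((b.trans i).trans j)).symm.toEmbedding δ, ?_⟩
    apply gf_res_cancel G (dec b)
    rw [← G.res_trans (dec b).toEmbedding (i.trans j), ← G.res_trans (dec b).toEmbedding i,
      ← dec_decMap b i]
    have h4 : (dec b).toEmbedding.trans (i.trans j) =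
        ((Embedding.refl B).sumMap ((decMap b i).trans (decMap (b.trans i) j))).trans
          (dec ((b.trans i).trans j)).toEmbedding := by
      have h5 := dec_decMap b i
      have h6 := dec_decMap (b.trans i) j
      have h7 : ((Embedding.refl B).sumMap ((decMap b i).trans (decMap (b.trans i) j))) =
          ((Embedding.refl B).sumMap (decMap b i)).trans
            ((Embedding.refl B).sumMap (decMap (b.trans i) j)) := by
        ext x
        cases x <;> rfl
      rw [h7]
      ext x
      change j (i (dec b x)) = dec ((b.trans i).trans j) _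
      have h8 := congrArg (fun f => f x) h5
      have h9 := congrArg (fun f => f ((Embedding.refl B).sumMap (decMap b i) x)) h6
      change dec (b.trans i) _ = i (dec b x) at h8
      change dec ((b.trans i).trans j) _ = j (dec (b.trans i) _) at h9
      rw [← h8]
      exact h9.symm
    rw [h4, G.res_trans, gf_res_symm, G.res_trans]
    exact hδ
  · intro X Y i hXY hX g
    simp only at hX
    rw [hth] at hX
    obtain ⟨b⟩ : Nonempty (B ↪ X) := by
      change #B ≤ #X
      rw [hB]
      exact ((hχ 0).le.trans (lam_le_th _)).trans hX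
    have e1 := hsub b (aleph0_le_th.trans hX) (((hχ 0).trans_le (lam_le_th _)).trans_le hX)
    obtain ⟨δ, hδ⟩ : ∃ δ : G.G (B ⊕ ((range (b.trans i))ᶜ : Set Y)),
        G.res ((Embedding.refl B).sumMap (decMap b i)) δ = G.res (dec b).toEmbedding g :=
      sys_surj (S := S) hh (decMap b i) (by rw [e1]; exact hX)
      (G.res (dec b).toEmbedding g)
    refine ⟨G.res (dec (b.trans i)).symm.toEmbedding δ, ?_⟩
    apply gf_res_cancel G (dec b)
    rw [← G.res_trans, ← dec_decMap b i, G.res_trans, gf_res_symm]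
    exact hδ

end Vale.Agent.P307.Tw
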