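import Vale.Agent.P307.Tw.Lev

/-! Stable images and solutions at the levels. -/

universe u

namespace Vale.Agent.P307.Tw

open Cardinal Set Function Sys

variable {S : Sys.{u}} {h : Cardinal.{u} → Cardinal.{u}} {Y : Type u} {ι : Type} {t : Set Y}
  {c : Y → Option ι}

/-- The function `h` bounds the sizes of extensions of coloured objects which do not have
extensions of all sizes. -/
def IsHanf (S : Sys.{u}) (h : Cardinal.{u} → Cardinal.{u}) : Prop :=
  ∀ (C : Type) [Finite C] (X : Type u) (c : X → C) (F J : Set C) (δ : S.Γ X),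
    Ext c F J δ (h #X) → ∀ b, Ext c F J δ b

theorem exists_isHanf (S : Sys.{u}) : ∃ h, IsHanf S h := by
  obtain ⟨h, hh⟩ := exists_hanf S
  exact ⟨h, fun C _ X c F J δ => hh c F J δ⟩

/-- The points whose colour is not `some j`. -/
def face (c : Y → Option ι) (j : ι) : Set Y := {y | c y ≠ some j}

theorem embed_compl {A B : Type u} {P : A → Prop} {l m : Cardinal.{u}} (hm : ℵ₀ ≤ m) (hlm : l < m)
    (hA : m ≤ #A) (hP : #{a // ¬ P a} ≤ l) (hB : #B ≤ m) : Nonempty (B ↪ {a // P a}) := by
  have h1 : #A ≤ #{a // P a} + #{a // ¬ P a} := by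
    rw [← Cardinal.mk_sum_compl {a | P a}]
    exact le_rfl
  have h2 : m ≤ #{a // P a} := by
    by_contra hc
    push Not at hc
    exact absurd (hA.trans h1) (not_le.2 (add_lt_of_lt hm hc (hP.trans_lt hlm)))
  exact (hB.trans h2)

theorem stable (hh : IsHanf S h) [Finite ι] (V : Lev h t c) {k n : ℕ} (hk : V.k0 ≤ k)
    (hn : k + 1 ≤ n) (δ : S.Γ (V.V (k + 1)))
    (hδ : Kern (fun y : V.V (k + 1) => c y) (range some) δ) :
    ∃ δ' : S.Γ (V.V n), Kern (fun y : V.V n => c y) (range some) δ' ∧
      S.r (V.mono ((Nat.le_succ k).trans hn)) δ' = S.r (V.mono (Nat.le_succ k)) δ := by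
  classical
  have hkn : k < n := hn
  have e1 : Ext (fun y : V.V k => c y) (range some) V.J (S.r (V.mono (Nat.le_succ k)) δ)
      (lam h (k + 1)) := by
    refine ⟨V.V (k + 1), fun y => c y, embeddingOfSubset _ _ (V.mono (Nat.le_succ k)), δ,
      fun x => rfl, rfl, hδ, ?_, ?_⟩
    · intro y hy
      exact ⟨⟨y.1, V.full _ (V.sub _ y.2) hy k hk⟩, rfl⟩
    · intro a ha
      rw [← V.cardJ a ha (k + 1)]
      apply mk_le_of_injective (f := fun y : {y // y ∈ V.V (k + 1) ∧ c y = a} =>
        (⟨⟨y.1, y.2.1⟩, y.2.2⟩ : {y : V.V (k + 1) // c y = a}))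
      intro y y' hy
      simp only [Subtype.mk.injEq] at hy
      exact Subtype.ext hy
  have e2 := hh _ _ _ _ _ _ (e1.mono (by rw [V.card]; exact hanf_le k)) (lam h n)
  obtain ⟨Z, c', i, δ', h1, h2, h3, h4, h5⟩ := e2
  have hri : ∀ a, #{z : {z : Z // c' z = a} // ¬ (z.1 ∉ range i)} ≤ lam h k := by
    intro a
    rw [← V.card k]
    have : ∀ z : {z : {z : Z // c' z = a} // ¬ (z.1 ∉ range i)}, ∃ y, i y = z.1.1 := fun z =>
      not_not.1 z.2
    choose g hg using this
    apply mk_le_of_injective (f := g)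
    intro z z' hz
    apply Subtype.ext
    apply Subtype.ext
    rw [← hg z, ← hg z', hz]
  have hf : ∀ a : Option ι, a ∈ V.J →
      Nonempty ({y : V.V n // c y = a} ↪ {z : {z : Z // c' z = a} // z.1 ∉ range i}) := by
    intro a ha
    apply embed_compl (aleph0_le_lam n) (lam_strictMono hkn) (h5 a ha) (hri a)
    rw [← V.card n]
    exact mk_subtype_le _
  obtain ⟨f⟩ : Nonempty (∀ a : Option ι, a ∈ V.J →
      ({y : V.V n // c y = a} ↪ {z : {z : Z // c' z = a} // z.1 ∉ range i})) :=
    ⟨fun a ha => (hf a ha).some⟩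
  have hJ : ∀ y : V.V n, y.1 ∉ V.V k → c y ∈ V.J := by
    intro y hy
    by_contra hc
    exact hy (V.full _ (V.sub _ y.2) hc k hk)
  let j0 : V.V n → Z := fun y =>
    if hy : y.1 ∈ V.V k then i ⟨y.1, hy⟩ else (f (c y) (hJ y hy) ⟨y, rfl⟩).1.1
  have j0k : ∀ (y : V.V n) (hy : y.1 ∈ V.V k), j0 y = i ⟨y.1, hy⟩ := fun y hy => dif_pos hy
  have j0n : ∀ (y : V.V n) (hy : y.1 ∉ V.V k), j0 y = (f (c y) (hJ y hy) ⟨y, rfl⟩).1.1 :=
    fun y hy => dif_neg hy
  have hc : ∀ y, c' (j0 y) = c y := by
    intro y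
    by_cases hy : y.1 ∈ V.V k
    · rw [j0k y hy, h1]
    · rw [j0n y hy]
      exact (f (c y) (hJ y hy) ⟨y, rfl⟩).1.2
  have hnr : ∀ (y : V.V n) (hy : y.1 ∉ V.V k), j0 y ∉ range i := by
    intro y hy
    rw [j0n y hy]
    exact (f (c y) (hJ y hy) ⟨y, rfl⟩).2
  have hinj : Injective j0 := by
    intro y y' hyy
    by_cases hy : y.1 ∈ V.V k
    · by_cases hy' : y'.1 ∈ V.V k
      · rw [j0k y hy, j0k y' hy'] at hyy
        have := i.injective hyy
        simp only [Subtype.mk.injEq] at this
        exact Subtype.ext this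
      · exfalso
        apply hnr y' hy'
        rw [← hyy, j0k y hy]
        exact ⟨_, rfl⟩
    · by_cases hy' : y'.1 ∈ V.V k
      · exfalso
        apply hnr y hy
        rw [hyy, j0k y' hy']
        exact ⟨_, rfl⟩
      · have hcc : c y = c y' := by rw [← hc, ← hc, hyy]
        rw [j0n y hy, j0n y' hy'] at hyy
        have key : ∀ (a a' : Option ι) (ha : a ∈ V.J) (ha' : a' ∈ V.J) (hy : c y = a)
            (hy' : c y' = a'), a = a' → (f a ha ⟨y, hy⟩).1.1 = (f a' ha' ⟨y', hy'⟩).1.1 →
            y = y' := by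
          intro a a' ha ha' hy hy' haa hff
          subst haa
          have := (f a ha).injective (Subtype.ext (Subtype.ext hff))
          simpa using this
        exact key _ _ _ _ rfl rfl hcc hyy
  let j : V.V n ↪ Z := ⟨j0, hinj⟩
  refine ⟨S.res j δ', ?_, ?_⟩
  · intro a ha W g hg
    rw [S.res_trans]
    exact h3 a ha W _ fun w => by
      change c' (j0 (g w)) ≠ a
      rw [hc]
      exact hg w
  · rw [r_res, ← h2]
    congr 1
    ext y
    exact j0k ⟨y.1, V.mono ((Nat.le_succ k).trans hn) y.2⟩ y.2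

/-- The family `γ` of elements on the faces of `t` agrees on the intersections. -/
def Compat (γ : ∀ j : ι, S.Γ ↥(t ∩ face c j)) : Prop :=
  ∀ i j, S.r (s := t ∩ (face c i ∩ face c j)) (inter_subset_inter_right _ inter_subset_left)
    (γ i) = S.r (inter_subset_inter_right _ inter_subset_right) (γ j)

/-- The element `e` on `s` agrees with the family `γ` on the faces in `T`. -/
def Agree (γ : ∀ j : ι, S.Γ ↥(t ∩ face c j)) (T : Set ι) {s : Set Y} (hs : s ⊆ t) (e : S.Γ s) :
    Prop :=
  ∀ j ∈ T, S.r (s := s ∩ face c j) inter_subset_left e =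
    S.r (inter_subset_inter_left _ hs) (γ j)

theorem level_exists [Finite ι] (V : Lev h t c) (γ : ∀ j : ι, S.Γ ↥(t ∩ face c j))
    (hγ : Compat γ) (T : Finset ι) : ∀ k, ∃ e : S.Γ (V.V k), Agree γ T (V.sub k) e := by
  classical
  induction T using Finset.induction_on with
  | empty => exact fun k => ⟨1, fun j hj => by simp at hj⟩
  | @insert j T hjT ih =>
    intro k
    obtain ⟨e, he⟩ := ih (k + 1)
    have hkk : V.V k ⊆ V.V (k + 1) := V.mono (Nat.le_succ k)
    let β : S.Γ ↥(V.V (k + 1) ∩ face c j) :=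
      S.r (inter_subset_inter_left _ (V.sub _)) (γ j) * (S.r inter_subset_left e)⁻¹
    have hβ : ∀ i ∈ T, S.r (s := V.V (k + 1) ∩ (face c j ∩ face c i))
        (inter_subset_inter_right _ inter_subset_left) β = 1 := by
      intro i hi
      have h1 := hγ j i
      have h2 := he i (by simpa using hi)
      have h3 := congrArg (S.r (s := V.V (k + 1) ∩ (face c j ∩ face c i))
        (inter_subset_inter_left _ (V.sub _))) h1
      have h4 := congrArg (S.r (s := V.V (k + 1) ∩ (face c j ∩ face c i))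
        (inter_subset_inter_right _ inter_subset_right)) h2
      rw [r_r, r_r] at h3 h4
      change S.r _ (_ * _⁻¹) = 1
      rw [r_mul, r_inv, r_r, r_r, h4, h3, mul_inv_cancel]
    -- the moving map
    obtain ⟨f⟩ : Nonempty (V.V k ↪ {a : {y // y ∈ V.V (k + 1) ∧ c y = none} // a.1 ∉ V.V k}) := by
      apply embed_compl (aleph0_le_lam (h := h) (k + 1)) (lam_lt_succ k)
      · rw [V.cardJ none V.base]
      · rw [← V.card k]
        apply mk_le_of_injective (f := fun a :
          {a : {y // y ∈ V.V (k + 1) ∧ c y = none} // ¬ (a.1 ∉ V.V k)} =>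
            (⟨a.1.1, not_not.1 a.2⟩ : V.V k))
        intro a a' haa
        simp only [Subtype.mk.injEq] at haa
        exact Subtype.ext (Subtype.ext haa)
      · rw [V.card]
        exact (lam_lt_succ k).le
    let ε0 : V.V k → ↥(V.V (k + 1) ∩ face c j) := fun y =>
      if hy : c y = some j then ⟨(f y).1.1, (f y).1.2.1, by
        change c _ ≠ _
        rw [(f y).1.2.2]
        simp⟩
      else ⟨y.1, hkk y.2, hy⟩
    have ε1 : ∀ (y : V.V k), c y = some j → (ε0 y).1 = (f y).1.1 := fun y hy => by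
      simp only [ε0]
      rw [dif_pos hy]
    have ε2 : ∀ (y : V.V k), c y ≠ some j → (ε0 y).1 = y.1 := fun y hy => by
      simp only [ε0]
      rw [dif_neg hy]
    have hinj : Injective ε0 := by
      intro y y' hyy
      have hyy' := congrArg Subtype.val hyy
      by_cases hy : c y = some j
      · by_cases hy' : c y' = some j
        · rw [ε1 y hy, ε1 y' hy'] at hyy'
          exact f.injective (Subtype.ext (Subtype.ext hyy'))
        · rw [ε1 y hy, ε2 y' hy'] at hyy'
          exact absurd y'.2 (hyy' ▸ (f y).2)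
      · by_cases hy' : c y' = some j
        · rw [ε2 y hy, ε1 y' hy'] at hyy'
          exact absurd y.2 (hyy' ▸ (f y').2)
        · rw [ε2 y hy, ε2 y' hy'] at hyy'
          exact Subtype.ext hyy'
    let ε : V.V k ↪ ↥(V.V (k + 1) ∩ face c j) := ⟨ε0, hinj⟩
    refine ⟨S.res ε β * S.r hkk e, ?_⟩
    intro i hi
    rw [Finset.coe_insert, mem_insert_iff] at hi
    rcases eq_or_ne i j with rfl | hij
    · rw [r_mul, r_r, r_res]
      have h5 : (embeddingOfSubset (V.V k ∩ face c i) (V.V k) inter_subset_left).trans ε =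
          embeddingOfSubset _ _ (inter_subset_inter_left _ hkk) := by
        ext y
        exact ε2 ⟨y.1, y.2.1⟩ y.2.2
      rw [h5]
      change S.r (inter_subset_inter_left _ hkk) (_ * _⁻¹) * _ = _
      rw [r_mul, r_inv, r_r, r_r, inv_mul_cancel_right]
    · have hiT : i ∈ T := by
        rcases hi with h | h
        · exact absurd h hij
        · simpa using h
      rw [r_mul, r_r, r_res]
      have hm : ∀ y : ↥(V.V k ∩ face c i), (ε0 ⟨y.1, y.2.1⟩).1 ∈
          V.V (k + 1) ∩ (face c j ∩ face c i) := by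
        intro y
        refine ⟨(ε0 ⟨y.1, y.2.1⟩).2.1, (ε0 ⟨y.1, y.2.1⟩).2.2, ?_⟩
        by_cases hy : c y.1 = some j
        · rw [ε1 ⟨y.1, y.2.1⟩ hy]
          change c _ ≠ _
          rw [(f _).1.2.2]
          simp
        · rw [ε2 ⟨y.1, y.2.1⟩ hy]
          exact y.2.2
      let ε' : ↥(V.V k ∩ face c i) ↪ ↥(V.V (k + 1) ∩ (face c j ∩ face c i)) :=
        ⟨fun y => ⟨(ε0 ⟨y.1, y.2.1⟩).1, hm y⟩, by
          intro y y' hyy
          simp only [Subtype.mk.injEq] at hyy
          have := hinj (Subtype.ext hyy)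
          simp only [Subtype.mk.injEq] at this
          exact Subtype.ext this⟩
      have h5 : (embeddingOfSubset (V.V k ∩ face c i) (V.V k) inter_subset_left).trans ε =
          ε'.trans (embeddingOfSubset _ _ (inter_subset_inter_right _ inter_subset_left)) := by
        ext y
        rfl
      have h6 : S.res ε' (S.r (inter_subset_inter_right _ inter_subset_left) β) = 1 := by
        rw [hβ i hiT, res_one]
      rw [res_r] at h6
      rw [h5, h6, one_mul]
      have h7 := congrArg (S.r (s := V.V k ∩ face c i) (inter_subset_inter_left _ hkk))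
        (he i (by simpa using hiT))
      rw [r_r, r_r] at h7
      exact h7

end Vale.Agent.P307.Tw
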