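import Vale.Agent.P307.Tw.Sheaf

/-! Solutions in all sizes, and the compactness theorem for torsors. -/

universe u

namespace Vale.Agent.P307.Tw

open Cardinal Set Function Sys

variable {S : Sys.{u}} {h : Cardinal.{u} → Cardinal.{u}} {Y : Type u} {ι : Type} {t : Set Y}
  {c : Y → Option ι}

theorem Compat.all {γ : ∀ j : ι, S.Γ ↥(t ∩ face c j)} (hγ : Compat γ) (i j : ι) {w : Set Y}
    (h1 : w ⊆ t ∩ face c i) (h2 : w ⊆ t ∩ face c j) : S.r h1 (γ i) = S.r h2 (γ j) := by
  have h3 : w ⊆ t ∩ (face c i ∩ face c j) := fun y hy => ⟨(h1 hy).1, (h1 hy).2, (h2 hy).2⟩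
  have h4 := congrArg (S.r h3) (hγ i j)
  rwa [r_r, r_r] at h4

theorem Agree.all {γ : ∀ j : ι, S.Γ ↥(t ∩ face c j)} {s : Set Y} {hs : s ⊆ t} {e : S.Γ s}
    {T : Set ι} (he : Agree γ T hs e) (j : ι) (hj : j ∈ T) {w : Set Y} (h1 : w ⊆ s)
    (h2 : w ⊆ t ∩ face c j) : S.r h1 e = S.r h2 (γ j) := by
  have h3 : w ⊆ s ∩ face c j := fun y hy => ⟨h1 hy, (h2 hy).2⟩
  have h4 := congrArg (S.r h3) (he j hj)
  rwa [r_r, r_r] at h4

/-- Families on the faces have solutions. -/
def Solv (S : Sys.{u}) {Y : Type u} {ι : Type} (t : Set Y) (c : Y → Option ι) : Prop :=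
  ∀ γ : ∀ j : ι, S.Γ ↥(t ∩ face c j), Compat γ → ∃ g : S.Γ t, Agree γ univ Subset.rfl g

/-- The solutions for a family. -/
def fam (γ : ∀ j : ι, S.Γ ↥(t ∩ face c j)) : Sheaf Y where
  P s := {g : S.Γ s // ∀ (j : ι) (w : Set Y) (h1 : w ⊆ s) (h2 : w ⊆ t ∩ face c j),
    S.r h1 g = S.r h2 (γ j)}
  r h p := ⟨S.r h p.1, fun j w h1 h2 => by rw [r_r]; exact p.2 j w _ h2⟩
  r_self h p := Subtype.ext (r_self _ _)
  r_r h h' p := Subtype.ext (r_r _ _ _)
  glue {κ _} s t' h hc hd a ha := by
    obtain ⟨b, hb⟩ := S.glue s t' h hc hd (fun i => (a i).1)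
      (fun i j hij => congrArg Subtype.val (ha i j hij))
    refine ⟨⟨b, ?_⟩, fun i => Subtype.ext (hb i)⟩
    intro j w h1 h2
    apply S.sep (fun i : κ => s i ∩ w) w (fun i => inter_subset_right)
    · intro y hy
      obtain ⟨i, hi⟩ := hc y (h1 hy)
      exact ⟨i, hi, hy⟩
    · intro i i'
      obtain ⟨k, hk, hk'⟩ := hd i i'
      exact ⟨k, inter_subset_inter_left _ hk, inter_subset_inter_left _ hk'⟩
    · intro i
      change S.r _ (S.r _ b) = S.r _ (S.r _ (γ j))
      have h3 := (a i).2 j (s i ∩ w) inter_subset_left (inter_subset_right.trans h2)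
      have h4 : S.r (h i) b = (a i).1 := hb i
      rw [← h4, r_r] at h3
      rw [r_r, r_r]
      exact h3

theorem kern_inter {s : Set Y} {g : S.Γ s} (hg : Kern (fun y : s => c y) (range some) g)
    (j : ι) {w : Set Y} (h1 : w ⊆ s) (h2 : w ⊆ face c j) : S.r h1 g = 1 :=
  hg (some j) ⟨j, rfl⟩ w _ fun y => h2 y.2

/-- The torsor of solutions. -/
def famTor (γ : ∀ j : ι, S.Γ ↥(t ∩ face c j)) : Tor S t c where
  toSheaf := fam γ
  act {s} g p := ⟨g.1 * p.1, fun j w h1 h2 => by
    rw [r_mul, kern_inter g.2 j h1 (h2.trans inter_subset_right), one_mul]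
    exact p.2 j w h1 h2⟩
  r_act h g g' hg p := Subtype.ext (by
    change S.r h (g.1 * p.1) = g'.1 * S.r h p.1
    rw [r_mul, hg])
  diff {s} hs p q := by
    refine ⟨⟨q.1 * p.1⁻¹, ?_⟩, Subtype.ext (inv_mul_cancel_right _ _)⟩
    rintro _ ⟨j, rfl⟩ W f hf
    rw [S.res_mul, res_inv]
    -- factor through the face
    let f' : W ↪ ↥(s ∩ face c j) := ⟨fun w => ⟨(f w).1, (f w).2, hf w⟩, fun w w' hw =>
      f.injective (Subtype.ext (show (f w).1 = (f w').1 from
        congrArg (fun z : ↥(s ∩ face c j) => z.1) hw))⟩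
    have h1 : ∀ p : (fam γ).P s, S.res f p.1 =
        S.res f' (S.r (inter_subset_inter_left _ hs) (γ j)) := by
      intro p
      have h2 := p.2 j (s ∩ face c j) inter_subset_left (inter_subset_inter_left _ hs)
      rw [← h2, res_r]
      rfl
    rw [h1, h1, mul_inv_cancel]

theorem solv_th (hh : IsHanf S h) [Finite ι] (t : Set Y) (c : Y → Option ι) (ht : #t = th h)
    (hb : #{y // y ∈ t ∧ c y = none} = th h) : Solv S t c := by
  classical
  intro γ hγ
  obtain ⟨V⟩ := exists_lev t c ht hb
  have := Fintype.ofFinite ι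
  obtain ⟨e⟩ := (famTor γ).exists_th hh V fun k => by
    obtain ⟨e, he⟩ := level_exists V γ hγ Finset.univ k
    exact ⟨⟨e, fun j w h1 h2 => he.all j (by simp) h1 h2⟩⟩
  exact ⟨e.1, fun j _ => e.2 j _ _ _⟩

theorem solv (hh : IsHanf S h) : ∀ (ρ : Cardinal.{u}) (t : Set Y), #t = ρ →
    ∀ (ι : Type) [Finite ι] (c : Y → Option ι), th h ≤ #{y // y ∈ t ∧ c y = none} →
    Solv S t c := by
  classical
  intro ρ
  induction ρ using WellFoundedLT.induction with
  | ind ρ ih =>
  intro t ht ι _ c hb
  have hbt : #{y // y ∈ t ∧ c y = none} ≤ #t := mk_le_mk_of_subset fun y hy => hy.1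
  rcases (hb.trans hbt).eq_or_lt with h1 | h1
  · exact solv_th hh t c h1.symm (le_antisymm (hbt.trans h1.symm.le) hb)
  · intro γ hγ
    obtain ⟨s0, hs0, hs0c⟩ := (le_mk_iff_exists_subset (s := {y | y ∈ t ∧ c y = none})).1 hb
    have hst : s0 ⊆ t := fun y hy => (hs0 hy).1
    -- the starting point
    have hx0 : Nonempty ((fam γ).P s0) := by
      obtain ⟨g, hg⟩ := ih (#s0) (by rw [hs0c, ← ht]; exact h1) s0 rfl ι c (by
        rw [← hs0c]
        exact mk_le_mk_of_subset fun y hy => ⟨hy, (hs0 hy).2⟩)
        (fun j => S.r (inter_subset_inter_left _ hst) (γ j)) (fun i j => by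
          rw [r_r, r_r]
          exact hγ.all i j _ _)
      refine ⟨⟨g, fun j w h2 h3 => ?_⟩⟩
      have h4 : w ⊆ s0 ∩ face c j := fun y hy => ⟨h2 hy, (h3 hy).2⟩
      have := hg.all j (mem_univ _) h2 h4
      change _ = S.r _ (S.r _ (γ j)) at this
      rwa [r_r] at this
    obtain ⟨x0⟩ := hx0
    have hinf : ℵ₀ ≤ #t := aleph0_le_th.trans h1.le
    obtain ⟨g, -⟩ := (fam γ).extend hst hinf (by rw [hs0c]; exact h1) x0 (by
      intro s hs0s hst hst' d hd hds x
      let ι' : Type := Option {j : ι // c d ≠ some j}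
      let c' : Y → Option ι' := fun y => if y = d then some none else
        match c y with
        | none => none
        | some j => if hj : c d ≠ some j then some (some ⟨j, hj⟩) else none
      have hc1 : ∀ y, y ≠ d → c y = none → c' y = none := by
        intro y hy hy'
        simp [c', hy, hy']
      have hf0 : ∀ y, y ∈ face c' none ↔ y ≠ d := by
        intro y
        change c' y ≠ some none ↔ _
        by_cases hy : y = d
        · simp [c', hy]
        · simp only [c', hy, if_false, ne_eq, not_false_eq_true, iff_true]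
          cases hcy : c y with
          | none => simp
          | some j =>
            simp only
            split_ifs <;> simp
      have hf1 : ∀ y (j : {j : ι // c d ≠ some j}), y ∈ face c' (some j) ↔ y ∈ face c j.1 := by
        rintro y ⟨j, hj⟩
        change c' y ≠ some (some _) ↔ c y ≠ some j
        by_cases hy : y = d
        · subst hy
          simp [c', hj]
        · simp only [c', hy, if_false]
          cases hcy : c y with
          | none => simp
          | some j' =>
            simp only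
            split_ifs with h2
            · refine not_congr ⟨fun h3 => ?_, fun h3 => ?_⟩
              · have h4 := Option.some.inj (Option.some.inj h3)
                exact congrArg (fun z : {j // c d ≠ some j} => some z.1) h4
              · have h4 := Option.some.inj h3
                subst h4
                rfl
            · simp only [ne_eq, reduceCtorEq, not_false_eq_true, Option.some.injEq, true_iff]
              rintro rfl
              exact h2 hj
      have hts : (insert d s) ∩ face c' none ⊆ s := by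
        rintro y ⟨h2, h3⟩
        exact (mem_insert_iff.1 h2).resolve_left ((hf0 y).1 h3)
      have htt : insert d s ⊆ t := insert_subset hd hst
      have htf : ∀ j : {j : ι // c d ≠ some j},
          (insert d s) ∩ face c' (some j) ⊆ t ∩ face c j.1 := fun j y hy =>
        ⟨htt hy.1, (hf1 y j).1 hy.2⟩
      let γ' : ∀ j : ι', S.Γ ↥((insert d s) ∩ face c' j) := fun j =>
        match j with
        | none => S.r hts x.1
        | some j => S.r (htf j) (γ j.1)
      have hcard : #(insert d s : Set Y) < #t :=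
        (mk_insert_le).trans_lt (add_lt_of_lt hinf hst' (one_lt_aleph0.trans_le hinf))
      have hγ' : Compat γ' := by
        intro i j
        cases i with
        | none =>
          cases j with
          | none =>
            simp only [γ', r_r]
          | some j =>
            change S.r _ (S.r _ x.1) = S.r _ (S.r _ (γ j.1))
            rw [r_r, r_r]
            exact x.2 j.1 _ _ _
        | some i =>
          cases j with
          | none =>
            change S.r _ (S.r _ (γ i.1)) = S.r _ (S.r _ x.1)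
            rw [r_r, r_r]
            exact (x.2 i.1 _ _ _).symm
          | some j =>
            change S.r _ (S.r _ (γ i.1)) = S.r _ (S.r _ (γ j.1))
            rw [r_r, r_r]
            exact hγ.all i.1 j.1 _ _
      obtain ⟨g, hg⟩ := ih (#(insert d s : Set Y)) (by rw [← ht]; exact hcard) _ rfl ι' c' (by
        rw [← hs0c]
        exact mk_le_mk_of_subset fun y hy => ⟨Or.inr (hs0s hy), hc1 y (by
          rintro rfl
          exact hds (hs0s hy)) (hs0 hy).2⟩) γ' hγ'
      have hg0 : ∀ (w : Set Y) (h2 : w ⊆ insert d s) (h3 : w ⊆ s), S.r h2 g = S.r h3 x.1 := by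
        intro w h2 h3
        have h4 : w ⊆ insert d s ∩ face c' none := fun y hy =>
          ⟨h2 hy, (hf0 y).2 (by rintro rfl; exact hds (h3 hy))⟩
        have h5 := hg.all none (mem_univ _) h2 h4
        change _ = S.r _ (S.r _ x.1) at h5
        rwa [r_r] at h5
      refine ⟨⟨g, ?_⟩, Subtype.ext ?_⟩
      · intro j w h2 h3
        by_cases hj : c d ≠ some j
        · have h4 : w ⊆ insert d s ∩ face c' (some ⟨j, hj⟩) := fun y hy =>
            ⟨h2 hy, (hf1 y ⟨j, hj⟩).2 (h3 hy).2⟩
          have h5 := hg.all (some ⟨j, hj⟩) (mem_univ _) h2 h4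
          change _ = S.r _ (S.r _ (γ j)) at h5
          rwa [r_r] at h5
        · have h4 : w ⊆ s := fun y hy =>
            (mem_insert_iff.1 (h2 hy)).resolve_left (by
              rintro rfl
              exact hj (h3 hy).2)
          rw [hg0 w h2 h4]
          exact x.2 j w h4 h3
      · have h5 := hg0 s (subset_insert d s) Subset.rfl
        rw [r_self] at h5
        exact h5)
    exact ⟨g.1, fun j _ => g.2 j _ _ _⟩

end Vale.Agent.P307.Tw
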