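import Vale.Agent.P307.Tw.Sys

/-! The sequence of cardinals and the levels of a coloured set. -/

universe u

namespace Vale.Agent.P307.Tw

open Cardinal Set Function

/-- The sequence of cardinals. -/
noncomputable def lam (h : Cardinal.{u} → Cardinal.{u}) : ℕ → Cardinal.{u}
  | 0 => ℵ₀
  | k + 1 => max (Order.succ (lam h k)) (h (lam h k))

/-- Its supremum. -/
noncomputable def th (h : Cardinal.{u} → Cardinal.{u}) : Cardinal.{u} := ⨆ k, lam h k

variable {h : Cardinal.{u} → Cardinal.{u}}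

theorem lam_lt_succ (k : ℕ) : lam h k < lam h (k + 1) :=
  (Order.lt_succ _).trans_le (le_max_left _ _)

theorem lam_strictMono : StrictMono (lam h) := strictMono_nat_of_lt_succ lam_lt_succ

theorem hanf_le (k : ℕ) : h (lam h k) ≤ lam h (k + 1) := le_max_right _ _

theorem aleph0_le_lam (k : ℕ) : ℵ₀ ≤ lam h k :=
  (lam_strictMono (h := h)).monotone (Nat.zero_le k)

theorem lam_le_th (k : ℕ) : lam h k ≤ th h := le_ciSup (f := lam h) bddAbove_of_small k

theorem lam_lt_th (k : ℕ) : lam h k < th h := (lam_lt_succ k).trans_le (lam_le_th _)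

theorem aleph0_le_th : ℵ₀ ≤ th h := (aleph0_le_lam 0).trans (lam_le_th (h := h) 0)

theorem exists_lt_lam {c : Cardinal.{u}} (hc : c < th h) : ∃ k, c < lam h k :=
  exists_lt_of_lt_ciSup hc

theorem mk_sigma_lam : #(Σ k : ℕ, (lam h k).out) = th h := by
  rw [Cardinal.mk_sigma]
  simp only [mk_out]
  apply le_antisymm
  · refine (Cardinal.sum_le_sum _ _ fun k => lam_le_th k).trans ?_
    rw [Cardinal.sum_const]
    simp only [mk_nat, lift_aleph0, lift_id']
    exact (mul_le_mul_left (aleph0_le_th (h := h)) _).trans_eq (mul_eq_self aleph0_le_th)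
  · exact ciSup_le' fun k => Cardinal.le_sum (fun k => lam h k) k

theorem exists_filt {Q : Type u} (hQ : #Q = th h) : ∃ G : ℕ → Set Q, Monotone G ∧
    (∀ k, #(G k) = lam h k) ∧ ∀ q, ∃ k, q ∈ G k := by
  obtain ⟨e⟩ : Nonempty (Q ≃ Σ k : ℕ, (lam h k).out) := by
    rw [← Cardinal.eq, hQ, mk_sigma_lam]
  refine ⟨fun k => {q | (e q).1 ≤ k}, fun k l hkl q hq => le_trans hq hkl, fun k => ?_,
    fun q => ⟨(e q).1, le_refl (e q).1⟩⟩
  apply le_antisymm
  · have h1 : #{q | (e q).1 ≤ k} ≤ #(Σ j : ℕ, (lam h (min j k)).out) := by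
      apply mk_le_of_injective
        (f := fun q : {q | (e q).1 ≤ k} =>
          (⟨(e q.1).1, cast (by rw [min_eq_left q.2]) (e q.1).2⟩ :
            Σ j : ℕ, (lam h (min j k)).out))
      intro q q' hqq
      have h1 := congrArg Sigma.fst hqq
      simp only at h1
      rw [Subtype.ext_iff]
      apply e.injective
      apply Sigma.ext h1
      have h2 := (Sigma.ext_iff.1 hqq).2
      simp only at h2
      exact ((cast_heq _ _).symm.trans h2).trans (cast_heq _ _)
    refine h1.trans ?_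
    rw [Cardinal.mk_sigma]
    simp only [mk_out]
    refine (Cardinal.sum_le_sum _ (fun _ => lam h k) fun j =>
      lam_strictMono.monotone (min_le_right j k)).trans ?_
    rw [Cardinal.sum_const]
    simp only [mk_nat, lift_aleph0, lift_id']
    exact (mul_le_mul_left (aleph0_le_lam (h := h) k) _).trans_eq
      (mul_eq_self (aleph0_le_lam k))
  · have h1 : #((lam h k).out) ≤ #{q | (e q).1 ≤ k} := by
      apply mk_le_of_injective
        (f := fun x : (lam h k).out => (⟨e.symm ⟨k, x⟩, by simp⟩ : {q | (e q).1 ≤ k}))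
      intro x y hxy
      have h1 := e.symm.injective (Subtype.ext_iff.1 hxy)
      exact eq_of_heq (Sigma.ext_iff.1 h1).2
    rwa [mk_out] at h1

/-- The levels of a coloured set. -/
structure Lev (h : Cardinal.{u} → Cardinal.{u}) {Y : Type u} {ι : Type} (t : Set Y)
    (c : Y → Option ι) where
  V : ℕ → Set Y
  mono : Monotone V
  sub : ∀ k, V k ⊆ t
  cover : ∀ y ∈ t, ∃ k, y ∈ V k
  card : ∀ k, #(V k) = lam h k
  J : Set (Option ι)
  base : none ∈ J
  cardJ : ∀ a ∈ J, ∀ k, #{y // y ∈ V k ∧ c y = a} = lam h k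
  k0 : ℕ
  full : ∀ y ∈ t, c y ∉ J → ∀ k, k0 ≤ k → y ∈ V k

theorem mk_biUnion_le {Y : Type u} {C : Type} (G : C → Set Y) {l : Cardinal.{u}} (hl : ℵ₀ ≤ l)
    (hG : ∀ a, #(G a) ≤ l) (s : Set C) (hs : s.Finite) : #(⋃ a ∈ s, G a : Set Y) ≤ l := by
  induction s, hs using Set.Finite.induction_on with
  | empty => simp
  | @insert a s _ _ ih =>
    rw [biUnion_insert]
    exact (mk_union_le _ _).trans (add_le_of_le hl (hG a) ih)

theorem exists_lev {Y : Type u} {ι : Type} [Finite ι] (t : Set Y) (c : Y → Option ι)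
    (ht : #t = th h) (hb : #{y // y ∈ t ∧ c y = none} = th h) : Nonempty (Lev h t c) := by
  classical
  have h1 : ∀ a : Option ι, ∃ G : ℕ → Set Y, Monotone G ∧ (∀ k, G k ⊆ {y | y ∈ t ∧ c y = a}) ∧
      (∀ y ∈ t, c y = a → ∃ k, y ∈ G k) ∧ (∀ k, #(G k) ≤ lam h k) ∧
      (#{y // y ∈ t ∧ c y = a} = th h → ∀ k, #(G k) = lam h k) ∧
      (#{y // y ∈ t ∧ c y = a} ≠ th h → ∃ k0, ∀ k, k0 ≤ k → ∀ y ∈ t, c y = a → y ∈ G k) := by
    intro a
    by_cases ha : #{y // y ∈ t ∧ c y = a} = th h
    · obtain ⟨G, g1, g2, g3⟩ := exists_filt ha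
      have g4 : ∀ k, #((↑) '' (G k) : Set Y) = lam h k := fun k => by
        rw [mk_image_eq Subtype.val_injective, g2]
      refine ⟨fun k => (↑) '' (G k), fun k l hkl => image_mono (g1 hkl), ?_, ?_,
        fun k => (g4 k).le, fun _ k => g4 k, fun h => absurd ha h⟩
      · rintro k _ ⟨y, -, rfl⟩
        exact y.2
      · intro y hy hc
        obtain ⟨k, hk⟩ := g3 ⟨y, hy, hc⟩
        exact ⟨k, _, hk, rfl⟩
    · have h2 : #{y // y ∈ t ∧ c y = a} < th h := by
        refine lt_of_le_of_ne ?_ ha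
        rw [← ht]
        exact mk_le_mk_of_subset (fun y hy => hy.1)
      obtain ⟨k0, hk0⟩ := exists_lt_lam h2
      refine ⟨fun k => if k0 ≤ k then {y | y ∈ t ∧ c y = a} else ∅, ?_, ?_, ?_, ?_,
        fun h => absurd h ha, fun _ => ⟨k0, ?_⟩⟩
      · intro k l hkl
        simp only
        split_ifs with h3 h4
        · exact le_rfl
        · exact absurd (h3.trans hkl) h4
        · exact empty_subset _
        · exact le_rfl
      · intro k
        simp only
        split_ifs
        · exact le_rfl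
        · exact empty_subset _
      · intro y hy hc
        exact ⟨k0, by simp [hy, hc]⟩
      · intro k
        simp only
        split_ifs with h3
        · exact hk0.le.trans (lam_strictMono.monotone h3)
        · simp
      · intro k hk y hy hc
        simp [hk, hy, hc]
  choose G g1 g2 g3 g4 g5 g6 using h1
  have h2 : ∀ a : Option ι, ∃ k0, #{y // y ∈ t ∧ c y = a} ≠ th h →
      ∀ k, k0 ≤ k → ∀ y ∈ t, c y = a → y ∈ G a k := by
    intro a
    by_cases ha : #{y // y ∈ t ∧ c y = a} = th h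
    · exact ⟨0, fun h => absurd ha h⟩
    · obtain ⟨k0, hk0⟩ := g6 a ha
      exact ⟨k0, fun _ => hk0⟩
  choose kk hkk using h2
  obtain ⟨k0, hk0⟩ : ∃ k0, ∀ a, kk a ≤ k0 := by
    obtain ⟨k0, hk0⟩ := (finite_range kk).bddAbove
    exact ⟨k0, fun a => hk0 ⟨a, rfl⟩⟩
  have h3 : ∀ a k, {y | y ∈ (⋃ b, G b k) ∧ c y = a} = G a k := by
    intro a k
    ext y
    simp only [mem_iUnion, mem_ofPred_eq]
    constructor
    · rintro ⟨⟨b, hb⟩, rfl⟩
      rwa [(g2 b k hb).2]
    · intro hy
      exact ⟨⟨a, hy⟩, (g2 a k hy).2⟩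
  have h4 : ∀ k, #(⋃ b, G b k : Set Y) = lam h k := by
    intro k
    apply le_antisymm
    · have := mk_biUnion_le (fun b => G b k) (aleph0_le_lam (h := h) k) (fun b => g4 b k) univ
        finite_univ
      simpa using this
    · rw [← g5 none hb k]
      exact mk_le_mk_of_subset (subset_iUnion (fun b => G b k) none)
  exact ⟨{
    V := fun k => ⋃ b, G b k
    mono := fun k l hkl => iUnion_mono fun b => g1 b hkl
    sub := fun k => iUnion_subset fun b => (g2 b k).trans fun y hy => hy.1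
    cover := fun y hy => by
      obtain ⟨k, hk⟩ := g3 (c y) y hy rfl
      exact ⟨k, mem_iUnion.2 ⟨_, hk⟩⟩
    card := h4
    J := {a | #{y // y ∈ t ∧ c y = a} = th h}
    base := hb
    cardJ := fun a ha k => by
      have h5 : #{y | y ∈ (⋃ b, G b k) ∧ c y = a} = #(G a k) := by rw [h3]
      rw [g5 a ha k] at h5
      exact h5
    k0 := k0
    full := fun y hy hJ k hk => mem_iUnion.2
      ⟨c y, hkk (c y) hJ k ((hk0 _).trans hk) y hy rfl⟩ }⟩

end Vale.Agent.P307.Tw
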