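import Vale.Agent.P307.Tw.Base

/-! Mittag-Leffler and extension point by point. -/

universe u

namespace Vale.Agent.P307.Tw

open Cardinal Set Function Sys

/-- A presheaf on the subsets of a set, with glueing along directed covers. -/
structure Sheaf (Y : Type u) where
  P : Set Y → Type u
  r : ∀ {s s' : Set Y}, s ⊆ s' → P s' → P s
  r_self : ∀ {s : Set Y} (h : s ⊆ s) (p : P s), r h p = p
  r_r : ∀ {s s' s'' : Set Y} (h : s ⊆ s') (h' : s' ⊆ s'') (p : P s''),
    r h (r h' p) = r (h.trans h') p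
  glue : ∀ {κ : Type u} [Nonempty κ] (s : κ → Set Y) (t : Set Y) (h : ∀ i, s i ⊆ t),
    (∀ y ∈ t, ∃ i, y ∈ s i) → Directed (· ⊆ ·) s → ∀ a : ∀ i, P (s i),
    (∀ i j (h : s i ⊆ s j), r h (a j) = a i) → ∃ b : P t, ∀ i, r (h i) b = a i

/-- A torsor over the kernels, on the subsets of `t`. -/
structure Tor (S : Sys.{u}) {Y : Type u} {ι : Type} (t : Set Y) (c : Y → Option ι)
    extends Sheaf Y where
  act : ∀ {s : Set Y}, {g : S.Γ s // Kern (fun y : s => c y) (range some) g} → P s → P s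
  r_act : ∀ {s s' : Set Y} (h : s ⊆ s')
    (g : {g : S.Γ s' // Kern (fun y : s' => c y) (range some) g})
    (g' : {g : S.Γ s // Kern (fun y : s => c y) (range some) g}) (_ : g'.1 = S.r h g.1) (p : P s'),
    r h (act g p) = act g' (r h p)
  diff : ∀ {s : Set Y} (_ : s ⊆ t) (p q : P s), ∃ g, act g p = q

variable {S : Sys.{u}} {h : Cardinal.{u} → Cardinal.{u}} {Y : Type u} {ι : Type} {t : Set Y}
  {c : Y → Option ι}

theorem Kern.r {s s' : Set Y} (h : s ⊆ s') {g : S.Γ s'}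
    (hg : Kern (fun y : s' => c y) (range some) g) :
    Kern (fun y : s => c y) (range some) (S.r h g) := by
  intro a ha W f hf
  rw [res_r]
  exact hg a ha W _ hf

theorem Tor.exists_th (E : Tor S t c) (hh : IsHanf S h) [Finite ι] (V : Lev h t c)
    (hne : ∀ k, Nonempty (E.P (V.V k))) : Nonempty (E.P t) := by
  have step : ∀ (k : ℕ) (_ : V.k0 ≤ k) (f : E.P (V.V (k + 1))), ∃ f' : E.P (V.V (k + 2)),
      E.r (V.mono (by omega : k ≤ k + 2)) f' = E.r (V.mono (Nat.le_succ k)) f := by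
    intro k hk f
    obtain ⟨g⟩ := hne (k + 2)
    obtain ⟨w, hw⟩ := E.diff (V.sub _) (E.r (V.mono (Nat.le_succ (k + 1))) g) f
    obtain ⟨w', h1, h2⟩ := stable hh V hk (Nat.le_succ (k + 1)) w.1 w.2
    refine ⟨E.act ⟨w', h1⟩ g, ?_⟩
    rw [E.r_act (V.mono (by omega : k ≤ k + 2)) ⟨w', h1⟩
      ⟨S.r (V.mono (Nat.le_succ k)) w.1, Kern.r _ w.2⟩ h2.symm, ← hw,
      E.r_act (V.mono (Nat.le_succ k)) w ⟨S.r (V.mono (Nat.le_succ k)) w.1, Kern.r _ w.2⟩ rfl,
      E.r_r]
  choose st hst using step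
  let F : ∀ n : ℕ, E.P (V.V (V.k0 + n + 1)) := fun n =>
    Nat.rec (motive := fun n => E.P (V.V (V.k0 + n + 1))) (hne _).some
      (fun n f => st (V.k0 + n) (Nat.le_add_right _ _) f) n
  have hF : ∀ n, F (n + 1) = st (V.k0 + n) (Nat.le_add_right _ _) (F n) := fun n => rfl
  let e : ∀ n : ℕ, E.P (V.V (V.k0 + n)) := fun n => E.r (V.mono (Nat.le_succ _)) (F n)
  have he : ∀ n, E.r (V.mono (Nat.le_succ (V.k0 + n))) (e (n + 1)) = e n := by
    intro n
    simp only [e]
    rw [E.r_r]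
    have := hst (V.k0 + n) (Nat.le_add_right _ _) (F n)
    rw [← hF] at this
    exact this
  have he2 : ∀ n m (hnm : n ≤ m), E.r (V.mono (by omega : V.k0 + n ≤ V.k0 + m)) (e m) = e n := by
    intro n m hnm
    induction m, hnm using Nat.le_induction with
    | base =>
      rw [← he n, E.r_r]
    | succ m hm ih =>
      have h3 := congrArg (E.r (V.mono (by omega : V.k0 + n ≤ V.k0 + m))) (he m)
      rw [E.r_r, ih] at h3
      exact h3
  obtain ⟨b, -⟩ := E.glue (κ := ULift.{u} ℕ) (fun i => V.V (V.k0 + i.down)) t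
    (fun i => V.sub _) (fun y hy => by
      obtain ⟨k, hk⟩ := V.cover y hy
      exact ⟨⟨k⟩, V.mono (Nat.le_add_left k V.k0) hk⟩)
    (fun i j => ⟨⟨max i.down j.down⟩, V.mono (by simp), V.mono (by simp)⟩)
    (fun i => e i.down) (by
      intro i j hij
      have h1 : V.k0 + i.down ≤ V.k0 + j.down := by
        by_contra hc
        push Not at hc
        have h2 := mk_le_mk_of_subset hij
        rw [V.card, V.card] at h2
        exact absurd h2 (not_le.2 (lam_strictMono hc))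
      exact he2 i.down j.down (by omega))
  exact ⟨b⟩

theorem Sheaf.extend (E : Sheaf Y) {s0 t : Set Y} (hs0 : s0 ⊆ t) (hinf : ℵ₀ ≤ #t)
    (hlt : #s0 < #t) (x0 : E.P s0)
    (step : ∀ s, s0 ⊆ s → s ⊆ t → #s < #t → ∀ d ∈ t, d ∉ s → ∀ x : E.P s,
      ∃ x' : E.P (insert d s), E.r (subset_insert d s) x' = x) :
    ∃ x : E.P t, E.r hs0 x = x0 := by
  classical
  obtain ⟨e⟩ : Nonempty (t ≃ (#t).ord.ToType) := by
    rw [← Cardinal.eq, mk_ord_toType]
  let L : Set (Set Y) := {s | s0 ⊆ s ∧ s ⊆ t ∧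
    ∀ y : t, y.1 ∈ s → y.1 ∉ s0 → ∀ z : t, e z < e y → z.1 ∈ s}
  let Q : Type u := {q : Σ s : Set Y, E.P s // q.1 ∈ L ∧ ∃ h : s0 ⊆ q.1, E.r h q.2 = x0}
  let R : Q → Q → Prop := fun q q' => ∃ h : q.1.1 ⊆ q'.1.1, E.r h q'.1.2 = q.1.2
  have htrans : ∀ {a b c : Q}, R a b → R b c → R a c := by
    rintro a b c ⟨h1, h2⟩ ⟨h3, h4⟩
    exact ⟨h1.trans h3, by rw [← h2, ← h4, E.r_r]⟩
  have hchain : ∀ C : Set Q, IsChain R C → ∃ ub, ∀ a ∈ C, R a ub := by
    intro C hC
    rcases C.eq_empty_or_nonempty with rfl | ⟨q0, hq0⟩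
    · refine ⟨⟨⟨s0, x0⟩, ⟨Subset.rfl, hs0, fun y hy hy' => absurd hy hy'⟩,
        ⟨Subset.rfl, E.r_self _ _⟩⟩, by simp⟩
    · have : Nonempty C := ⟨⟨q0, hq0⟩⟩
      have htot : ∀ a b : C, R a.1 b.1 ∨ R b.1 a.1 := by
        intro a b
        by_cases hab : a.1 = b.1
        · rw [hab]
          exact Or.inl ⟨Subset.rfl, E.r_self _ _⟩
        · exact hC a.2 b.2 hab
      obtain ⟨b, hb⟩ := E.glue (κ := C) (fun q => q.1.1.1) (⋃ q : C, q.1.1.1)
        (fun q => subset_iUnion (fun q : C => q.1.1.1) q)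
        (fun y hy => mem_iUnion.1 hy)
        (fun q q' => by
          rcases htot q q' with h1 | h1
          · exact ⟨q', h1.1, Subset.rfl⟩
          · exact ⟨q, Subset.rfl, h1.1⟩)
        (fun q => q.1.1.2) (by
          intro q q' hqq
          rcases htot q q' with ⟨h1, h2⟩ | ⟨h1, h2⟩
          · exact h2
          · rw [← h2, E.r_r, E.r_self])
      refine ⟨⟨⟨⋃ q : C, q.1.1.1, b⟩, ⟨?_, ?_, ?_⟩, ?_, ?_⟩, fun q hq => ⟨?_, hb ⟨q, hq⟩⟩⟩
      · exact q0.2.1.1.trans (subset_iUnion (fun q : C => q.1.1.1) ⟨q0, hq0⟩)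
      · exact iUnion_subset fun q => q.1.2.1.2.1
      · intro y hy hy0 z hz
        obtain ⟨q, hq⟩ := mem_iUnion.1 hy
        exact mem_iUnion.2 ⟨q, q.1.2.1.2.2 y hq hy0 z hz⟩
      · exact q0.2.1.1.trans (subset_iUnion (fun q : C => q.1.1.1) ⟨q0, hq0⟩)
      · obtain ⟨h1, h2⟩ := q0.2.2
        have h3 := congrArg (E.r h1) (hb ⟨q0, hq0⟩)
        rw [E.r_r] at h3
        exact h3.trans h2
      · exact subset_iUnion (fun q : C => q.1.1.1) ⟨q, hq⟩
  obtain ⟨m, hm⟩ := exists_maximal_of_chains_bounded hchain htrans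
  by_cases hmt : m.1.1 = t
  · obtain ⟨⟨s, x⟩, hL, h1, h2⟩ := m
    simp only at hmt
    subst hmt
    exact ⟨x, h2⟩
  · exfalso
    obtain ⟨d0, hd0, hd0'⟩ : ∃ d ∈ t, d ∉ m.1.1 := by
      by_contra hc
      push Not at hc
      exact hmt (m.2.1.2.1.antisymm hc)
    let A : Set (#t).ord.ToType := {i | (e.symm i).1 ∉ m.1.1}
    have hA : A.Nonempty := ⟨e ⟨d0, hd0⟩, by simpa [A] using hd0'⟩
    let i := WellFounded.min wellFounded_lt A hA
    have hi : i ∈ A := WellFounded.min_mem _ _ _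
    have hi2 : ∀ j, j < i → (e.symm j).1 ∈ m.1.1 := by
      intro j hj
      by_contra hc
      exact WellFounded.not_lt_min wellFounded_lt A (x := j) hc hj
    have hcard : #m.1.1 < #t := by
      have h1 : m.1.1 ⊆ s0 ∪ (fun j => (e.symm j).1) '' (Iio i) := by
        intro y hy
        by_cases hy0 : y ∈ s0
        · exact Or.inl hy0
        · right
          refine ⟨e ⟨y, m.2.1.2.1 hy⟩, ?_, by simp⟩
          by_contra hc
          rw [mem_Iio, not_lt] at hc
          rcases hc.eq_or_lt with h2 | h2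
          · apply hi
            rw [h2]
            simpa using hy
          · apply hi
            have := m.2.1.2.2 ⟨y, m.2.1.2.1 hy⟩ hy hy0 (e.symm i) (by simpa using h2)
            exact this
      refine (mk_le_mk_of_subset h1).trans_lt ((mk_union_le _ _).trans_lt
        (add_lt_of_lt hinf hlt (mk_image_le.trans_lt ?_)))
      simpa using mk_Iio_lt i (by simp)
    obtain ⟨x', hx'⟩ := step m.1.1 m.2.1.1 m.2.1.2.1 hcard (e.symm i).1 (e.symm i).2 hi m.1.2
    have hmax := hm ⟨⟨insert (e.symm i).1 m.1.1, x'⟩, ⟨m.2.1.1.trans (subset_insert _ _),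
      insert_subset (e.symm i).2 m.2.1.2.1, ?_⟩, m.2.1.1.trans (subset_insert _ _), ?_⟩
      ⟨subset_insert _ _, hx'⟩
    · exact hi (hmax.1 (mem_insert _ _))
    · intro y hy hy0 z hz
      rcases mem_insert_iff.1 hy with h1 | h1
      · right
        have h2 : y = e.symm i := Subtype.ext h1
        rw [h2, Equiv.apply_symm_apply] at hz
        have := hi2 _ hz
        rwa [Equiv.symm_apply_apply] at this
      · exact Or.inr (m.2.1.2.2 y h1 hy0 z hz)
    · obtain ⟨h1, h2⟩ := m.2.2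
      have h3 := congrArg (E.r h1) hx'
      rw [E.r_r] at h3
      exact h3.trans h2

end Vale.Agent.P307.Tw
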